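import Vale.Agent.P144Q.Basic

/-!
The complement of a domain of the class is fat.
-/

namespace Vale.Agent.P144Q.L

open Filter Topology Metric Vale.Agent.P144
open Vale.Agent.P144Z (Cone)

/-- The real scalar product. -/
def ip (v ν : ℂ) : ℝ := v.re * ν.re + v.im * ν.im

theorem ip_le (v : ℂ) {ν : ℂ} (h : ‖ν‖ = 1) : |ip v ν| ≤ ‖v‖ := by
  have h1 := Complex.sq_norm v
  have h2 := Complex.sq_norm ν
  rw [Complex.normSq_apply] at h1 h2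
  rw [h] at h2
  refine abs_le_of_sq_le_sq' ?_ (norm_nonneg v) |> abs_le.2
  unfold ip
  nlinarith [sq_nonneg (v.re * ν.im - v.im * ν.re)]

theorem ip_self {ν : ℂ} (h : ‖ν‖ = 1) : ip ν ν = 1 := by
  have h2 := Complex.sq_norm ν
  rw [Complex.normSq_apply, h] at h2
  unfold ip
  linarith

theorem ip_add (u v ν : ℂ) : ip (u + v) ν = ip u ν + ip v ν := by simp [ip]; ring

theorem ip_sub (u v ν : ℂ) : ip (u - v) ν = ip u ν - ip v ν := by simp [ip]; ring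

theorem ip_smul (t : ℝ) (v ν : ℂ) : ip (t * v) ν = t * ip v ν := by simp [ip]; ring

/-- One chart, with its own slope. -/
def Chart (D : Set ℂ) (γ r : ℝ) (z : ℂ) : Prop :=
  ∃ (κ : ℝ) (S₁ S₂ : Set ℂ) (ν₁ ν₂ μ : ℂ), 0 ≤ κ ∧ κ ≤ 9 / 10 ∧ ‖ν₁‖ = 1 ∧ ‖ν₂‖ = 1 ∧ ‖μ‖ = 1 ∧
    κ + γ ≤ ip μ ν₁ ∧ κ + γ ≤ ip μ ν₂ ∧ Cone S₁ ν₁ κ ∧ Cone S₂ ν₂ κ ∧
      D ∩ ball z r = S₁ ∩ S₂ ∩ ball z r

/-- The class with slopes depending on the chart. -/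
def Lip3 (D : Set ℂ) : Prop :=
  IsOpen D ∧ Bornology.IsBounded D ∧ ∃ γ r : ℝ, 0 < γ ∧ 0 < r ∧ ∀ z, Chart D γ r z

theorem lip3_of_lip2 {D : Set ℂ} (h : Lip2 D) : Lip3 D := by
  obtain ⟨h1, h2, κ, γ, r, k0, k1, g0, r0, h⟩ := h
  refine ⟨h1, h2, γ, r, g0, r0, fun z => ?_⟩
  obtain ⟨S₁, S₂, ν₁, ν₂, μ, a1, a2, a3, a4, a5, a6, a7, a8⟩ := h z
  exact ⟨κ, S₁, S₂, ν₁, ν₂, μ, k0, k1, a1, a2, a3, a4, a5, a6, a7, a8⟩

/-- An outer point of a chart has a cone of outer points. -/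
theorem Chart.out {D : Set ℂ} {γ r : ℝ} {z : ℂ} (h : Chart D γ r z) : ∃ κ : ℝ, ∃ μ : ℂ, 0 ≤ κ ∧
    κ ≤ 9 / 10 ∧ ‖μ‖ = 1 ∧ ∀ y ∈ ball z r, y ∉ D → ∃ ν : ℂ, ‖ν‖ = 1 ∧ κ + γ ≤ ip μ ν ∧
      ∀ u ∈ ball z r, κ * ‖y - u‖ ≤ ip (y - u) ν → u ∉ D := by
  obtain ⟨κ, S₁, S₂, ν₁, ν₂, μ, k0, k1, a1, a2, a3, a4, a5, a6, a7, a8⟩ := h
  refine ⟨κ, μ, k0, k1, a3, fun y hy hyD => ?_⟩
  have key : ∀ u ∈ ball z r, u ∈ D → u ∈ S₁ ∧ u ∈ S₂ := fun u hu huD => by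
    have : u ∈ S₁ ∩ S₂ ∩ ball z r := a8 ▸ ⟨huD, hu⟩
    exact this.1
  have h12 : y ∉ S₁ ∨ y ∉ S₂ := by
    by_contra hc
    push Not at hc
    have : y ∈ D ∩ ball z r := a8 ▸ ⟨hc, hy⟩
    exact hyD this.1
  rcases h12 with h | h
  · refine ⟨ν₁, a1, a4, fun u hu hc huD => h ?_⟩
    have := a6 u (key u hu huD).1 (y - u) hc
    rwa [add_sub_cancel] at this
  · refine ⟨ν₂, a2, a5, fun u hu hc huD => h ?_⟩
    have := a7 u (key u hu huD).2 (y - u) hc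
    rwa [add_sub_cancel] at this

theorem Chart.fat {D : Set ℂ} {γ r : ℝ} {z : ℂ} (h : Chart D γ r z) (hz : z ∉ D) {t : ℝ}
    (ht : 0 < t) (htr : t ≤ r / 2) : ∃ w, ‖w - z‖ ≤ t ∧ ∀ u, ‖u - w‖ ≤ 1 / 20 * t → u ∉ D := by
  obtain ⟨κ, μ, k0, k1, -, h⟩ := h.out
  obtain ⟨ν, n1, -, h⟩ := h z (mem_ball_self (by linarith)) hz
  have e1 : ‖(t : ℂ) * ν‖ = t := by rw [norm_mul, n1, Complex.norm_real, mul_one, Real.norm_of_nonneg ht.le]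
  refine ⟨z - t * ν, by rw [sub_sub_cancel_left, norm_neg, e1], fun u hu => h u ?_ ?_⟩
  · rw [mem_ball, dist_eq_norm]
    have : u - z = (u - (z - t * ν)) - t * ν := by ring
    rw [this]
    have := norm_sub_le (u - (z - t * ν)) (t * ν)
    linarith
  · have e : z - u = t * ν - (u - (z - t * ν)) := by ring
    have f1 := norm_sub_le ((t : ℂ) * ν) (u - (z - t * ν))
    have f2 := (abs_le.1 (ip_le (u - (z - t * ν)) n1)).2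
    rw [e, ip_sub, ip_smul, ip_self n1]
    nlinarith [norm_nonneg ((t : ℂ) * ν - (u - (z - t * ν)))]

theorem fat3 {D : Set ℂ} (h : Lip3 D) : Fat D := by
  obtain ⟨-, -, γ, r, -, r0, h⟩ := h
  exact ⟨1 / 20, by norm_num, r / 2, by positivity, fun z hz t ht htr => (h z).fat hz ht htr⟩

theorem fat : SFat := fun _ h => fat3 (lip3_of_lip2 h)

end Vale.Agent.P144Q.L
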