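import Vale.Agent.P144Q.L.Fat
import Mathlib.Topology.MetricSpace.ProperSpace.Lemmas

/-!
The lattice approximation of a domain of the class: the outer sites are connected.
-/

namespace Vale.Agent.P144Q.L

open Filter Topology Metric Vale.Agent.P144
open Vale.Agent.P144.H170 (Pt pt nf ev_nf pt_fl_norm)
open Vale.Agent.P144G (KC)

/-- Connected through outer sites. -/
def Cn (D : Set ℂ) (a : ℝ) : Site → Site → Prop :=
  Relation.ReflTransGen fun x y : Site =>
    pt a x ∉ D ∧ pt a y ∉ D ∧ |x.1 - y.1| ≤ 1 ∧ |x.2 - y.2| ≤ 1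

section

variable {D : Set ℂ} {a : ℝ}

theorem Cn.symm {v w : Site} (h : Cn D a v w) : Cn D a w v := by
  induction h with
  | refl => exact .refl
  | tail _ h2 ih =>
    exact Relation.ReflTransGen.head ⟨h2.2.1, h2.1, by rw [abs_sub_comm]; exact h2.2.2.1,
      by rw [abs_sub_comm]; exact h2.2.2.2⟩ ih

theorem Cn.trans {u v w : Site} (h : Cn D a u v) (h' : Cn D a v w) : Cn D a u w :=
  Relation.ReflTransGen.trans h h'

theorem floor_near {s t : ℝ} (h : |s - t| < 1) : |⌊s⌋ - ⌊t⌋| ≤ 1 := by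
  obtain ⟨h1, h2⟩ := abs_lt.1 h
  have a1 := Int.floor_le s
  have a2 := Int.lt_floor_add_one s
  have a3 := Int.floor_le t
  have a4 := Int.lt_floor_add_one t
  have b1 : ((⌊s⌋ - ⌊t⌋ : ℤ) : ℝ) < (2 : ℤ) := by push_cast; linarith
  have b2 : ((-2 : ℤ) : ℝ) < ((⌊s⌋ - ⌊t⌋ : ℤ) : ℝ) := by push_cast; linarith
  have c1 := Int.cast_lt.1 b1
  have c2 := Int.cast_lt.1 b2
  rw [abs_le]; lia

theorem fl_near (ha : 0 < a) {z z' : ℂ} (h : ‖z - z'‖ < a) :
    |(fl a z).1 - (fl a z').1| ≤ 1 ∧ |(fl a z).2 - (fl a z').2| ≤ 1 := by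
  have h1 := (Complex.abs_re_le_norm (z - z')).trans_lt h
  have h2 := (Complex.abs_im_le_norm (z - z')).trans_lt h
  rw [Complex.sub_re] at h1
  rw [Complex.sub_im] at h2
  constructor
  · refine floor_near ?_
    rw [← sub_div, abs_div, abs_of_pos ha, div_lt_one ha]; exact h1
  · refine floor_near ?_
    rw [← sub_div, abs_div, abs_of_pos ha, div_lt_one ha]; exact h2

theorem fl_pt (ha : 0 < a) (x : Site) : fl a (pt a x) = x := by
  simp [fl, pt, mul_div_cancel_left₀ _ ha.ne']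

/-- Along a connected set whose lattice points are outer. -/
theorem cn_of_conn (ha : 0 < a) {W : Set ℂ} (hW : IsPreconnected W)
    (h : ∀ z ∈ W, pt a (fl a z) ∉ D) {z z' : ℂ} (hz : z ∈ W) (hz' : z' ∈ W) :
    Cn D a (fl a z) (fl a z') := by
  refine hW.induction₂ (fun x y => Cn D a (fl a x) (fl a y)) (fun x hx => ?_)
    (fun _ _ _ _ _ _ h1 h2 => h1.trans h2) (fun _ _ _ _ h1 => h1.symm) hz hz'
  filter_upwards [self_mem_nhdsWithin, mem_nhdsWithin_of_mem_nhds (ball_mem_nhds x ha)] with y hy hb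
  rw [mem_ball, dist_comm, dist_eq_norm] at hb
  exact Relation.ReflTransGen.single ⟨h x hx, h y hy, fl_near ha hb⟩

/-- A king move in a direction close to `ν`. -/
theorem king {ν : ℂ} (h : ‖ν‖ = 1) : ∃ e : Site, |e.1| ≤ 1 ∧ |e.2| ≤ 1 ∧ ‖pt 1 e‖ ≤ 2 ∧
    9 / 10 * ‖pt 1 e‖ + 1 / 50 ≤ ip (pt 1 e) ν := by
  have h2 := Complex.sq_norm ν
  rw [Complex.normSq_apply, h] at h2
  have nn : ∀ (e : Site) (c : ℝ), 0 ≤ c → (e.1 : ℝ) ^ 2 + (e.2 : ℝ) ^ 2 ≤ c ^ 2 → ‖pt 1 e‖ ≤ c := by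
    intro e c hc he
    refine abs_le_of_sq_le_sq' ?_ hc |>.2
    rw [Complex.sq_norm, Complex.normSq_apply]
    simp only [pt, one_mul]
    nlinarith
  have fin : ∀ (e : Site) (c : ℝ), 0 ≤ c → c ≤ 2 → |e.1| ≤ 1 → |e.2| ≤ 1 →
      (e.1 : ℝ) ^ 2 + (e.2 : ℝ) ^ 2 ≤ c ^ 2 →
      9 / 10 * c + 1 / 50 ≤ e.1 * ν.re + e.2 * ν.im → ∃ e : Site, |e.1| ≤ 1 ∧ |e.2| ≤ 1 ∧
        ‖pt 1 e‖ ≤ 2 ∧ 9 / 10 * ‖pt 1 e‖ + 1 / 50 ≤ ip (pt 1 e) ν := by
    intro e c c0 c2 e1 e2 e3 e4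
    have := nn e c c0 e3
    refine ⟨e, e1, e2, by linarith, ?_⟩
    simp only [ip, pt, one_mul] at this ⊢
    linarith
  by_cases a1 : 92 / 100 ≤ ν.re
  · exact fin (1, 0) 1 (by norm_num) (by norm_num) (by simp) (by simp) (by simp) (by simp; linarith)
  by_cases a2 : ν.re ≤ -(92 / 100)
  · exact fin (-1, 0) 1 (by norm_num) (by norm_num) (by simp) (by simp) (by simp) (by simp; linarith)
  by_cases a3 : 92 / 100 ≤ ν.im
  · exact fin (0, 1) 1 (by norm_num) (by norm_num) (by simp) (by simp) (by simp) (by simp; linarith)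
  by_cases a4 : ν.im ≤ -(92 / 100)
  · exact fin (0, -1) 1 (by norm_num) (by norm_num) (by simp) (by simp) (by simp) (by simp; linarith)
  push Not at a1 a2 a3 a4
  have key : ∀ x y : ℝ, 0 ≤ x → 0 ≤ y → x < 92 / 100 → y < 92 / 100 → x * x + y * y = 1 →
      9 / 10 * (142 / 100) + 1 / 50 ≤ x + y := by
    intro x y x0 y0 x1 y1 e
    have x2 : 39 / 100 ≤ x := by nlinarith
    have y2 : 39 / 100 ≤ y := by nlinarith
    nlinarith [mul_nonneg (sub_nonneg.2 x2) (sub_nonneg.2 x1.le),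
      mul_nonneg (sub_nonneg.2 y2) (sub_nonneg.2 y1.le)]
  rcases le_total 0 ν.re with b1 | b1 <;> rcases le_total 0 ν.im with b2 | b2
  · have := key ν.re ν.im b1 b2 a1 a3 (by linarith)
    exact fin (1, 1) (142 / 100) (by norm_num) (by norm_num) (by simp) (by simp) (by norm_num)
      (by simp only [Int.cast_one]; linarith)
  · have := key ν.re (-ν.im) b1 (by linarith) a1 (by linarith) (by linarith)
    exact fin (1, -1) (142 / 100) (by norm_num) (by norm_num) (by simp) (by simp) (by norm_num)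
      (by simp only [Int.cast_one, Int.cast_neg]; linarith)
  · have := key (-ν.re) ν.im (by linarith) b2 (by linarith) a3 (by linarith)
    exact fin (-1, 1) (142 / 100) (by norm_num) (by norm_num) (by simp) (by simp) (by norm_num)
      (by simp only [Int.cast_one, Int.cast_neg]; linarith)
  · have := key (-ν.re) (-ν.im) (by linarith) (by linarith) (by linarith) (by linarith)
      (by linarith)
    exact fin (-1, -1) (142 / 100) (by norm_num) (by norm_num) (by simp) (by simp) (by norm_num)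
      (by simp only [Int.cast_one, Int.cast_neg]; linarith)

theorem convex_cone (p ν : ℂ) {κ : ℝ} (hκ : 0 ≤ κ) (c : ℝ) :
    Convex ℝ {y : ℂ | c + κ * ‖p - y‖ ≤ ip (p - y) ν} := by
  intro x hx y hy s t hs ht hst
  simp only [Set.mem_ofPred_eq] at hx hy ⊢
  have e : p - (s • x + t • y) = s * (p - x) + t * (p - y) := by
    have : (s : ℂ) + t = 1 := by exact_mod_cast hst
    simp only [Complex.real_smul]
    linear_combination (-p) * this
  have n := norm_add_le ((s : ℂ) * (p - x)) (t * (p - y))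
  rw [norm_mul, norm_mul, Complex.norm_real, Complex.norm_real, Real.norm_of_nonneg hs,
    Real.norm_of_nonneg ht] at n
  rw [e, ip_add, ip_smul, ip_smul]
  have f1 := mul_le_mul_of_nonneg_left hx hs
  have f2 := mul_le_mul_of_nonneg_left hy ht
  have f3 := mul_le_mul_of_nonneg_left n hκ
  have f4 : c = s * c + t * c := by rw [← add_mul, hst, one_mul]
  nlinarith

theorem Chart.le_one {γ r : ℝ} {z : ℂ} (h : Chart D γ r z) : γ ≤ 1 := by
  obtain ⟨κ, S₁, S₂, ν₁, ν₂, μ, k0, k1, a1, a2, a3, a4, -⟩ := h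
  have := (abs_le.1 (ip_le μ a1)).2
  linarith

/-- The outer sites close to the centre of a chart are connected. -/
theorem Chart.cn {γ r : ℝ} {z : ℂ} (h : Chart D γ r z) (hγ : 0 < γ) (hr : 0 < r) (ha : 0 < a)
    (h1 : a ≤ γ * r / 16) (h2 : a ≤ r / 1000) : ∃ w : Site, ∀ v : Site, pt a v ∉ D →
      ‖pt a v - z‖ ≤ γ * r / 8 → Cn D a v w := by
  have hγ1 := h.le_one
  obtain ⟨κ, μ, k0, k1, m1, h⟩ := h.out
  refine ⟨fl a (z - ((r / 2 : ℝ) : ℂ) * μ), fun v hv hvz => ?_⟩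
  have hvz' : ‖pt a v - z‖ ≤ r / 8 := by nlinarith
  obtain ⟨ν, n1, hμν, h⟩ := h (pt a v) (by rw [mem_ball, dist_eq_norm]; linarith) hv
  obtain ⟨e, e1, e2, e3, e4⟩ := king n1
  have ej : ∀ j : ℕ, pt a v - pt a (v.1 - j * e.1, v.2 - j * e.2) = ((j * a : ℝ) : ℂ) * pt 1 e := by
    intro j
    apply Complex.ext <;> simp [pt] <;> ring
  have nj : ∀ j : ℕ, ‖((j * a : ℝ) : ℂ) * pt 1 e‖ = j * a * ‖pt 1 e‖ := by
    intro j
    rw [norm_mul, Complex.norm_real, Real.norm_of_nonneg (by positivity)]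
  have bj : ∀ j : ℕ, j ≤ 200 → ‖pt a (v.1 - j * e.1, v.2 - j * e.2) - z‖ ≤ r / 8 + 400 * a := by
    intro j hj
    have hj' : (j : ℝ) ≤ 200 := by exact_mod_cast hj
    have := norm_sub_le (pt a v - z) (((j * a : ℝ) : ℂ) * pt 1 e)
    rw [nj, ← ej, sub_sub_sub_cancel_left] at this
    have f : j * a * ‖pt 1 e‖ ≤ 200 * a * 2 := by gcongr
    linarith
  have κe : κ * ‖pt 1 e‖ + 1 / 50 ≤ ip (pt 1 e) ν := by nlinarith [norm_nonneg (pt 1 e)]
  have oj : ∀ j : ℕ, j ≤ 200 → pt a (v.1 - j * e.1, v.2 - j * e.2) ∉ D := by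
    intro j hj
    refine h _ (by rw [mem_ball, dist_eq_norm]; linarith [bj j hj]) ?_
    rw [ej, nj, ip_smul]
    have : (0 : ℝ) ≤ j * a := by positivity
    nlinarith
  have cj : ∀ j : ℕ, j ≤ 200 → Cn D a v (v.1 - j * e.1, v.2 - j * e.2) := by
    intro j
    induction j with
    | zero =>
      intro _
      have : (v.1 - ((0 : ℕ) : ℤ) * e.1, v.2 - ((0 : ℕ) : ℤ) * e.2) = v := by simp
      rw [this]
      exact Relation.ReflTransGen.refl
    | succ j ih =>
      intro hj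
      refine Relation.ReflTransGen.tail (ih (by lia)) ⟨oj j (by lia), oj (j + 1) hj, ?_, ?_⟩
      · have : v.1 - j * e.1 - (v.1 - ((j + 1 : ℕ) : ℤ) * e.1) = e.1 := by push_cast; ring
        simpa only [this] using e1
      · have : v.2 - j * e.2 - (v.2 - ((j + 1 : ℕ) : ℤ) * e.2) = e.2 := by push_cast; ring
        simpa only [this] using e2
  refine (cj 200 le_rfl).trans ?_
  rw [← fl_pt ha (v.1 - (200 : ℕ) * e.1, v.2 - (200 : ℕ) * e.2)]
  refine cn_of_conn ha (W := {y : ℂ | 4 * a + κ * ‖pt a v - y‖ ≤ ip (pt a v - y) ν} ∩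
    ball z (r - 2 * a)) ((convex_cone _ _ k0 _).inter (convex_ball _ _)).isPreconnected ?_
    ⟨?_, ?_⟩ ⟨?_, ?_⟩
  · rintro y ⟨y1, y2⟩
    simp only [Set.mem_ofPred_eq] at y1
    rw [mem_ball, dist_eq_norm] at y2
    have u1 := pt_fl_norm ha y
    refine h _ ?_ ?_
    · rw [mem_ball, dist_eq_norm]
      linarith [norm_sub_le_norm_sub_add_norm_sub (pt a (fl a y)) y z]
    · have e : pt a v - pt a (fl a y) = (pt a v - y) - (pt a (fl a y) - y) := by ring
      have f1 := norm_sub_le (pt a v - y) (pt a (fl a y) - y)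
      have f2 := (abs_le.1 (ip_le (pt a (fl a y) - y) n1)).2
      rw [e, ip_sub]
      have f3 := mul_le_mul_of_nonneg_left f1 k0
      nlinarith [norm_nonneg (pt a (fl a y) - y)]
  · simp only [Set.mem_ofPred_eq]
    rw [ej, nj, ip_smul]
    push_cast
    nlinarith
  · rw [mem_ball, dist_eq_norm]
    exact (bj 200 le_rfl).trans_lt (by linarith)
  · simp only [Set.mem_ofPred_eq]
    have e : pt a v - (z - ((r / 2 : ℝ) : ℂ) * μ) = (pt a v - z) + ((r / 2 : ℝ) : ℂ) * μ := by ring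
    have f1 := norm_add_le (pt a v - z) (((r / 2 : ℝ) : ℂ) * μ)
    rw [norm_mul, m1, Complex.norm_real, Real.norm_of_nonneg (by positivity)] at f1
    have f2 := (abs_le.1 (ip_le (pt a v - z) n1)).1
    rw [e, ip_add, ip_smul]
    have f3 := mul_le_mul_of_nonneg_left f1 k0
    have f4 := mul_le_mul_of_nonneg_left hμν (by positivity : (0 : ℝ) ≤ r / 2)
    nlinarith [norm_nonneg (pt a v - z)]
  · rw [mem_ball, dist_eq_norm, sub_sub_cancel_left, norm_neg, norm_mul, m1, Complex.norm_real,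
      Real.norm_of_nonneg (by positivity)]
    linarith

/-- The complement of a compact conformal disc in the domain is connected. -/
theorem Cm.ann (c : Cm D) {s : ℝ} (hs : 0 < s) :
    IsPreconnected (D \ c.ψ '' closedBall 0 s) := by
  have e : D \ c.ψ '' closedBall 0 s = (fun p : ℝ × ℝ => c.ψ (p.1 * Complex.exp (p.2 * Complex.I))) ''
      (Set.Ioo s 1 ×ˢ Set.univ) := by
    ext x
    constructor
    · rintro ⟨hx, hK⟩
      have h1 : ‖c.φ x‖ < 1 := by simpa using c.φm hx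
      refine ⟨(‖c.φ x‖, (c.φ x).arg), ⟨⟨?_, h1⟩, trivial⟩, ?_⟩
      · by_contra hc
        exact hK ⟨c.φ x, by simpa using hc, c.li x hx⟩
      · simp only [Complex.norm_mul_exp_arg_mul_I]
        exact c.li x hx
    · rintro ⟨⟨t, θ⟩, ⟨⟨t1, t2⟩, -⟩, rfl⟩
      simp only at t1 t2 ⊢
      have n : ‖(t : ℂ) * Complex.exp (θ * Complex.I)‖ = t := by
        rw [norm_mul, Complex.norm_exp_ofReal_mul_I, mul_one, Complex.norm_real,
          Real.norm_of_nonneg (by linarith)]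
      have b : (t : ℂ) * Complex.exp (θ * Complex.I) ∈ ball (0 : ℂ) 1 := by
        rw [mem_ball_zero_iff, n]; exact t2
      refine ⟨c.ψm b, ?_⟩
      rintro ⟨w, hw, hw'⟩
      rw [mem_closedBall_zero_iff] at hw
      have := c.ri w (by rw [mem_ball_zero_iff]; linarith)
      rw [hw', c.ri _ b] at this
      rw [this] at n
      linarith
  rw [e]
  refine (isPreconnected_Ioo.prod isPreconnected_univ).image _ ?_
  refine c.ψd.continuousOn.comp (by fun_prop) ?_
  rintro ⟨t, θ⟩ ⟨⟨t1, t2⟩, -⟩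
  simp only at t1 t2 ⊢
  rw [mem_ball_zero_iff, norm_mul, Complex.norm_exp_ofReal_mul_I, mul_one, Complex.norm_real,
    Real.norm_of_nonneg (by linarith)]
  exact t2

/-- Outside of a compact conformal disc all points are close to the complement. -/
theorem Cm.rad (c : Cm D) (hD : Bornology.IsBounded D) {η : ℝ} (hη : 0 < η) :
    ∃ s, 0 < s ∧ s < 1 ∧ ∀ x ∈ D \ c.ψ '' closedBall 0 s, infDist x Dᶜ < η := by
  have h1 : {x : ℂ | η ≤ infDist x Dᶜ} ⊆ D := fun x hx => by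
    by_contra hc
    have : η ≤ infDist x Dᶜ := hx
    rw [infDist_zero_of_mem hc] at this
    linarith
  have h2 : IsCompact {x : ℂ | η ≤ infDist x Dᶜ} :=
    isCompact_of_isClosed_isBounded (isClosed_le continuous_const (continuous_infDist_pt _))
      (hD.subset h1)
  have h3 := h2.image_of_continuousOn (c.φd.continuousOn.mono h1)
  obtain ⟨s, ⟨s0, s1⟩, hs⟩ := exists_pos_lt_subset_ball (x := (0 : ℂ)) one_pos h3.isClosed
    (by rintro _ ⟨x, hx, rfl⟩; exact c.φm (h1 hx))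
  refine ⟨s, s0, s1, fun x hx => ?_⟩
  by_contra hc
  exact hx.2 ⟨c.φ x, ball_subset_closedBall (hs ⟨x, not_lt.1 hc, rfl⟩), c.li x hx.1⟩

theorem cn_all (hD : Lip3 D) (c : Cm D) : ∃ a₀ > (0 : ℝ), ∀ a, 0 < a → a ≤ a₀ → ∀ v w : Site,
    pt a v ∉ D → pt a w ∉ D → Cn D a v w := by
  obtain ⟨hop, hb, γ, r, hγ, hr, h⟩ := hD
  have hγ1 := (h 0).le_one
  obtain ⟨ρ, hρ⟩ : ∃ ρ, ρ = γ * r / 16 := ⟨_, rfl⟩
  have ρ0 : 0 < ρ := by rw [hρ]; positivity
  have ρ1 : ρ ≤ r / 16 := by rw [hρ]; nlinarith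
  obtain ⟨s, s0, s1, hs⟩ := Cm.rad c hb (η := ρ / 2) (by positivity)
  refine ⟨min (ρ / 160) (r / 1000), by positivity, fun a ha ha0 v w hv hw => ?_⟩
  have a1 : a ≤ ρ / 160 := ha0.trans (min_le_left _ _)
  have a2 : a ≤ r / 1000 := ha0.trans (min_le_right _ _)
  have loc : ∀ z : ℂ, ∀ v w : Site, pt a v ∉ D → pt a w ∉ D → ‖pt a v - z‖ ≤ 2 * ρ →
      ‖pt a w - z‖ ≤ 2 * ρ → Cn D a v w := by
    intro z v w hv hw h1 h2
    obtain ⟨u, hu⟩ := (h z).cn hγ hr ha (by linarith) a2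
    exact (hu v hv (by linarith)).trans (hu w hw (by linarith)).symm
  obtain ⟨K, hK⟩ : ∃ K, K = c.ψ '' closedBall 0 s := ⟨_, rfl⟩
  have hKc : IsCompact K := hK ▸ (isCompact_closedBall 0 s).image_of_continuousOn
    (c.ψd.continuousOn.mono (closedBall_subset_ball s1))
  have hKD : K ⊆ D := by
    rw [hK]; rintro _ ⟨x, hx, rfl⟩; exact c.ψm (closedBall_subset_ball s1 hx)
  have hA : IsPreconnected (D \ K) := hK ▸ Cm.ann c s0
  rw [← hK] at hs
  have ex : ∀ x ∉ K, ∃ u : Site, pt a u ∉ D ∧ ‖pt a u - x‖ ≤ ρ := by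
    intro x hx
    have : ∃ y ∉ D, ‖y - x‖ ≤ ρ / 2 := by
      by_cases hxD : x ∈ D
      · obtain ⟨y, hy, hy'⟩ := (infDist_lt_iff ⟨_, hv⟩).1 (hs x ⟨hxD, hx⟩)
        exact ⟨y, hy, by rw [← dist_eq_norm, dist_comm]; exact hy'.le⟩
      · exact ⟨x, hxD, by rw [sub_self, norm_zero]; positivity⟩
    obtain ⟨y, hy, hyx⟩ := this
    obtain ⟨q, q1, q2⟩ := (h y).fat hy (t := ρ / 4) (by positivity) (by linarith)
    have q3 := pt_fl_norm ha q
    refine ⟨fl a q, q2 _ (by linarith), ?_⟩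
    linarith [norm_sub_le_norm_sub_add_norm_sub (pt a (fl a q)) q x,
      norm_sub_le_norm_sub_add_norm_sub q y x]
  choose! σ σ1 σ2 using ex
  have near : ∀ x ∉ K, ∀ y ∉ K, ‖y - x‖ ≤ ρ → Cn D a (σ x) (σ y) := fun x hx y hy hxy =>
    loc x _ _ (σ1 x hx) (σ1 y hy) (by linarith [σ2 x hx])
      (by linarith [σ2 y hy, norm_sub_le_norm_sub_add_norm_sub (pt a (σ y)) y x])
  have inA : ∀ x ∈ D \ K, ∀ y ∈ D \ K, Cn D a (σ x) (σ y) := fun x hx y hy => by
    refine hA.induction₂ (fun x y => Cn D a (σ x) (σ y)) (fun x hx => ?_)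
      (fun _ _ _ _ _ _ h1 h2 => h1.trans h2) (fun _ _ _ _ h1 => h1.symm) hx hy
    filter_upwards [self_mem_nhdsWithin, mem_nhdsWithin_of_mem_nhds (closedBall_mem_nhds x ρ0)]
      with y hy hb
    exact near x hx.2 y hy.2 (by rwa [mem_closedBall, dist_eq_norm] at hb)
  have hne : (D \ K).Nonempty := by
    have b : (((1 + s) / 2 : ℝ) : ℂ) ∈ ball (0 : ℂ) 1 := by
      rw [mem_ball_zero_iff, Complex.norm_real, Real.norm_of_nonneg (by linarith)]; linarith
    refine ⟨c.ψ ((1 + s) / 2 : ℝ), c.ψm b, ?_⟩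
    rw [hK]
    rintro ⟨u, hu, hu'⟩
    have := c.ri u (closedBall_subset_ball s1 hu)
    rw [hu', c.ri _ b] at this
    rw [← this, mem_closedBall_zero_iff, Complex.norm_real, Real.norm_of_nonneg (by linarith)] at hu
    linarith
  obtain ⟨x₀, hx₀⟩ := hne
  have all : ∀ x y : ℂ, ((x ∉ K → Cn D a (σ x) (σ x₀)) → (y ∉ K → Cn D a (σ y) (σ x₀))) := by
    intro x y
    refine isPreconnected_univ.induction₂'
      (fun x y => (x ∉ K → Cn D a (σ x) (σ x₀)) → (y ∉ K → Cn D a (σ y) (σ x₀))) (fun x _ => ?_)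
      (fun _ _ _ _ _ _ h1 h2 h3 => h2 (h1 h3)) (Set.mem_univ x) (Set.mem_univ y)
    rw [nhdsWithin_univ]
    by_cases hx : x ∈ K
    · filter_upwards [hop.mem_nhds (hKD hx)] with y hy
      exact ⟨fun _ hyK => inA y ⟨hy, hyK⟩ x₀ hx₀, fun _ h => absurd hx h⟩
    · filter_upwards [hKc.isClosed.isOpen_compl.mem_nhds hx, closedBall_mem_nhds x ρ0] with y hy hb
      have := near x hx y hy (by rwa [mem_closedBall, dist_eq_norm] at hb)
      exact ⟨fun h _ => this.symm.trans (h hx), fun h _ => this.trans (h hy)⟩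
  have fin : ∀ v : Site, pt a v ∉ D → Cn D a v (σ x₀) := fun v hv => by
    have hvK : pt a v ∉ K := fun h => hv (hKD h)
    refine (loc (pt a v) v _ hv (σ1 _ hvK) (by rw [sub_self, norm_zero]; positivity)
      (by linarith [σ2 _ hvK])).trans (all x₀ _ (fun _ => Relation.ReflTransGen.refl) hvK)
  exact (fin v hv).trans (fin w hw).symm

theorem lat3 (hD : Lip3 D) (c : Cm D) : Fam0 D (disc D) := by
  have hb := hD.2.1
  refine ⟨fun z hz => ?_, fun ε hε => ?_, ?_⟩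
  · obtain ⟨r, hr, h⟩ := nhds_basis_closedBall.mem_iff.1 (hD.1.mem_nhds hz)
    refine (ev_nf (P := fun k x => x ∈ disc D k)).2 ⟨r, hr, ?_⟩
    filter_upwards [self_mem_nhdsWithin] with a ha x hx
    exact (mem_disc hb ha x).2 (h (by rwa [mem_closedBall, dist_eq_norm]))
  · filter_upwards [self_mem_nhdsWithin] with a ha x hx
    exact ⟨_, (mem_disc hb ha x).1 hx, by
      have : pt a x - (⟨a * x.1, a * x.2⟩ : ℂ) = 0 := sub_self _
      rw [this, norm_zero]; exact hε.le⟩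
  · obtain ⟨a₀, h0, h⟩ := cn_all hD c
    filter_upwards [Ioc_mem_nhdsGT h0] with a ha v hv w hw
    rw [mem_disc hb ha.1] at hv hw
    have key := h a ha.1 ha.2 v w hv hw
    clear hw
    induction key with
    | refl => exact .refl
    | tail _ h2 ih => exact ih.tail ⟨fun hy => h2.2.1 ((mem_disc hb ha.1 _).1 hy), h2.2.2⟩

end

theorem lat : SLat := fun _ h ⟨c⟩ => lat3 (lip3_of_lip2 h) c

end Vale.Agent.P144Q.L
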